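import Crest.Agent.X212.Emo56.Gd
import Crest.Agent.X212.Rob53.Mu
import Crest.Agent.X212.Gnk31.Main
import Crest.Agent.X212.Hdg40.Op
import Crest.Agent.X212.Hdg40.Cy
import Crest.Agent.X212.Rinv39.Main
import Crest.Agent.X212.Hdg40.Main
import Crest.Agent.X212.Clo39.Clo
import Crest.Agent.X212.Clo39.Tail
import Crest.Agent.X212.Clo39.Cok
import Crest.Agent.X212.Top0.Rd
import Crest.Agent.X212.Lw78.Gen
import Crest.Agent.X212.Enr44.Bas
import Crest.Agent.X212.Enr44.Enq
import Crest.Agent.X212.Enr44.Prd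
import Crest.Agent.X212.Enr44.Enr
import Crest.Agent.X212.Lg40.Main
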